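import Vale.Agent.P251.F.Inv
import Vale.Agent.P251.F.Framed
import Mathlib.Algebra.Polynomial.Laurent

/-!
# P221X, block J: the statement `AS` (the Artin-Schreier tower)

`K` is a field of characteristic `p`, `F` a law of height one over `K`, `γ = [1 + p]` or its inverse.
`Bt K = K[t, t⁻¹][b]` represents the pairs (unit `t`, strict series `U`); it carries the law
`lawB F = U • (lin t)⁻¹ • F` and the automorphism `sig γ : U ↦ U ∘ γ`.
-/

noncomputable section

namespace Vale.Agent.P221X.J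

open Vale.Agent.P251.F Vale.Agent.P217

variable (K : Type) [Field K]

/-- `K[t, t⁻¹]` -/
abbrev Kt : Type := LaurentPolynomial K

/-- `K[t, t⁻¹][b₀, b₁, …]` -/
abbrev Bt : Type := MvPolynomial ℕ (Kt K)

/-- the unit `t` -/
def tU : (Kt K)ˣ where
  val := LaurentPolynomial.T 1
  inv := LaurentPolynomial.T (-1)
  val_inv := by rw [← LaurentPolynomial.T_add, add_neg_cancel, LaurentPolynomial.T_zero]
  inv_val := by rw [← LaurentPolynomial.T_add, neg_add_cancel, LaurentPolynomial.T_zero]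

/-- the universal strict series -/
def uB : InvSeries (Bt K) := strictMk fun i => MvPolynomial.X i

variable {K}

/-- the rescaled series `t⁻¹ γ(t x)` -/
def scS (γ : InvSeries K) : InvSeries (Kt K) :=
  (InvSeries.lin (tU K))⁻¹ * InvSeries.map LaurentPolynomial.C γ * InvSeries.lin (tU K)

/-- the rescaled law -/
def lawT (F : Law K) : Law (Kt K) := (InvSeries.lin (tU K))⁻¹ • F.map LaurentPolynomial.C

/-- the law `U • F` -/
def lawB (F : Law K) : Law (Bt K) := uB K • (lawT F).map MvPolynomial.C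

/-- the endomorphism `U ↦ U ∘ γ` -/
def sig (γ : InvSeries K) : Bt K →ₐ[Kt K] Bt K :=
  MvPolynomial.aeval fun i => (uB K * InvSeries.map MvPolynomial.C (scS γ)).c (i + 1)

/-- the elements all of whose coefficients are Laurent polynomials in `t ^ (p - 1)` -/
def Sup (p : ℕ) (f : Bt K) : Prop :=
  ∀ (a : ℕ →₀ ℕ) (n : ℤ), ¬ ((p : ℤ) - 1) ∣ n → (MvPolynomial.coeff a f : Kt K).coeff n = 0

/-- a constant -/
abbrev cst (c : K) : Bt K := MvPolynomial.C (LaurentPolynomial.C c)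

/-- The hypotheses: height one, invariance under the roots of unity, `γ = [1 + p]^{± 1}`. -/
structure HT1 (p : ℕ) (F : Law K) (γ : InvSeries K) : Prop where
  ht : vv p 1 F ≠ 0
  mu : ∀ ζ : Kˣ, ζ ^ (p - 1) = 1 → InvSeries.lin ζ • F = F
  ga : γ.val = multSeries F.toFG (p + 1) ∨ (γ⁻¹).val = multSeries F.toFG (p + 1)

/-- `sig γ - 1` is onto. -/
def ASOnto (p : ℕ) (γ : InvSeries K) : Prop :=
  ∀ f : Bt K, Sup p f → ∃ g : Bt K, Sup p g ∧ sig γ g - g = f

/-- `K ⊗ v₁⁻¹ Laz / p ⟶ Bt K` is injective. -/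
def ASInj (p : ℕ) [Algebra (ZMod p) K] (F : Law K) : Prop :=
  ∀ (ι : Type) (e : Module.Basis ι (ZMod p) K) (z : ι →₀ Laz),
    (z.sum fun i x => cst (e i) * Laz.lift (lawB F) x) = 0 →
      ∀ i, ∃ (k : ℕ) (y : Laz), Laz.v p 1 ^ k * z i = (p : Laz) * y

/-- the invariants of `sig γ` come from `K ⊗ v₁⁻¹ Laz / p`. -/
def ASKer (p : ℕ) [Algebra (ZMod p) K] (F : Law K) (γ : InvSeries K) : Prop :=
  ∀ (ι : Type) (e : Module.Basis ι (ZMod p) K) (f : Bt K), Sup p f → sig γ f = f →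
    ∃ (k : ℕ) (z : ι →₀ Laz), Laz.lift (lawB F) (Laz.v p 1) ^ k * f =
      z.sum fun i x => cst (e i) * Laz.lift (lawB F) x

/-- Row J-AS. -/
def ASStmt (p : ℕ) : Prop :=
  ∀ (K : Type) [Field K] [CharP K p] [Algebra (ZMod p) K] (F : Law K) (γ : InvSeries K),
    HT1 p F γ → ASOnto p γ ∧ ASInj p F ∧ ASKer p F γ

end Vale.Agent.P221X.J
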